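import Mathlib

/-! Tracial C⋆-algebras and their `L²` norm. -/

open Filter Topology
open scoped InnerProductSpace ComplexOrder ComplexConjugate

namespace Vale.Agent.P085

/-- A faithful tracial state. -/
class Tr (A : Type*) [CStarAlgebra A] where
  τ : A →ₗ[ℂ] ℂ
  tr : ∀ x y, τ (x * y) = τ (y * x)
  pos : ∀ x, 0 ≤ τ (star x * x)
  one : τ 1 = 1
  faith : ∀ x, τ (star x * x) = 0 → x = 0

export Tr (τ)

/-- The algebra with its `L²` norm. -/
def L (A : Type*) : Type _ := A

variable {A : Type*} [CStarAlgebra A]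

instance : AddCommGroup (L A) := inferInstanceAs (AddCommGroup A)
instance : Module ℂ (L A) := inferInstanceAs (Module ℂ A)

/-- The identity map to the `L²` copy. -/
noncomputable def v : A ≃ₗ[ℂ] L A := LinearEquiv.refl ℂ A

variable [Tr A]

lemma τ_comm (x y : A) : τ (x * y) = τ (y * x) := Tr.tr x y

lemma τ_one : τ (1 : A) = 1 := Tr.one

lemma τ_pos (x : A) : 0 ≤ τ (star x * x) := Tr.pos x

lemma τ_star (x : A) : τ (star x) = conj (τ x) := by
  have h0 := (Complex.nonneg_iff.1 (τ_pos x)).2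
  have h1 := (Complex.nonneg_iff.1 (τ_pos (1 + x))).2
  have h2 := (Complex.nonneg_iff.1 (τ_pos (1 + Complex.I • x))).2
  have e1 : star (1 + x) * (1 + x) = 1 + x + star x + star x * x := by
    rw [star_add, star_one]; noncomm_ring
  have e2 : star (1 + Complex.I • x) * (1 + Complex.I • x) =
      1 + Complex.I • x - Complex.I • star x + star x * x := by
    rw [star_add, star_one, star_smul, Complex.star_def, Complex.conj_I]
    have : (-Complex.I) • star x * Complex.I • x = star x * x := by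
      rw [smul_mul_smul_comm, neg_mul, Complex.I_mul_I, neg_neg, one_smul]
    rw [add_mul, mul_add, mul_add, this, one_mul, one_mul, mul_one, neg_smul]
    abel
  rw [e1] at h1
  rw [e2] at h2
  simp only [map_add, map_sub, map_smul, τ_one, Complex.add_im, Complex.sub_im, Complex.one_im,
    smul_eq_mul, Complex.mul_im, Complex.I_re, Complex.I_im] at h1 h2
  apply Complex.ext
  · rw [Complex.conj_re]; linarith
  · rw [Complex.conj_im]; linarith

/-- The inner product `⟪x, y⟫ = τ (x⋆ y)`. -/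
@[reducible] noncomputable def core : InnerProductSpace.Core ℂ (L A) where
  inner x y := τ (star (v.symm x : A) * v.symm y)
  conj_inner_symm x y := by
    rw [← τ_star, star_mul, star_star]
  re_inner_nonneg x := (Complex.nonneg_iff.1 (τ_pos _)).1
  add_left x y z := by rw [map_add, star_add, add_mul, map_add]
  smul_left x y r := by
    rw [map_smul, star_smul, smul_mul_assoc, map_smul]; rfl
  definite x h := by
    have := Tr.faith _ h
    exact v.symm.map_eq_zero_iff.1 this

noncomputable instance : NormedAddCommGroup (L A) :=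
  @InnerProductSpace.Core.toNormedAddCommGroup ℂ (L A) _ _ _ core

noncomputable instance : InnerProductSpace ℂ (L A) := InnerProductSpace.ofCore core.toCore

lemma inner_v (x y : A) : ⟪v x, v y⟫_ℂ = τ (star x * y) := rfl

lemma norm_v_sq (x : A) : ‖v x‖ ^ 2 = (τ (star x * x)).re := by
  rw [← inner_v, ← inner_self_eq_norm_sq (𝕜 := ℂ)]; rfl

lemma τ_star_mul_self (x : A) : τ (star x * x) = ((‖v x‖ ^ 2 : ℝ) : ℂ) := by
  rw [← inner_v, inner_self_eq_norm_sq_to_K]; simp

lemma norm_v_star (x : A) : ‖v (star x)‖ = ‖v x‖ := by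
  rw [← sq_eq_sq₀ (norm_nonneg _) (norm_nonneg _), norm_v_sq, norm_v_sq, star_star, τ_comm]

lemma norm_v_mul_le (x y : A) : ‖v (x * y)‖ ≤ ‖x‖ * ‖v y‖ := by
  let _ := CStarAlgebra.spectralOrder A
  have _ := CStarAlgebra.spectralOrderedRing A
  have h1 : star x * x ≤ algebraMap ℝ A (‖x‖ ^ 2) := CStarAlgebra.star_mul_le_algebraMap_norm_sq
  obtain ⟨k, hk⟩ := CStarAlgebra.nonneg_iff_eq_star_mul_self.1 (sub_nonneg.2 h1)
  have h2 := (Complex.nonneg_iff.1 (τ_pos (k * y))).1
  have e : star (k * y) * (k * y) =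
      ((‖x‖ ^ 2 : ℝ) : ℂ) • (star y * y) - star (x * y) * (x * y) := by
    rw [star_mul, star_mul, mul_assoc, ← mul_assoc (star k), ← hk, sub_mul, mul_sub,
      Algebra.algebraMap_eq_smul_one, smul_mul_assoc, one_mul, mul_smul_comm, Complex.coe_smul]
    simp only [mul_assoc]
  rw [e, map_sub, map_smul, τ_star_mul_self, τ_star_mul_self, smul_eq_mul,
    ← Complex.ofReal_mul, ← Complex.ofReal_sub, Complex.ofReal_re] at h2
  rw [← sq_le_sq₀ (norm_nonneg _) (by positivity), mul_pow]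
  linarith

lemma norm_v_mul_le' (x y : A) : ‖v (x * y)‖ ≤ ‖v x‖ * ‖y‖ := by
  rw [← norm_v_star, star_mul, ← norm_v_star x, ← norm_star y, mul_comm]
  exact norm_v_mul_le _ _

lemma norm_v_one : ‖v (1 : A)‖ = 1 := by
  have := norm_v_sq (1 : A)
  rw [star_one, one_mul, τ_one, Complex.one_re] at this
  exact (pow_eq_one_iff_of_nonneg (norm_nonneg _) two_ne_zero).1 this

lemma norm_v_le (x : A) : ‖v x‖ ≤ ‖x‖ := by
  simpa [norm_v_one] using norm_v_mul_le x 1

lemma norm_τ_mul_le (x y : A) : ‖τ (x * y)‖ ≤ ‖v x‖ * ‖v y‖ := by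
  have := norm_inner_le_norm (𝕜 := ℂ) (v (star x)) (v y)
  rwa [inner_v, star_star, norm_v_star] at this

lemma norm_τ_le (x : A) : ‖τ x‖ ≤ ‖v x‖ := by
  simpa [norm_v_one] using norm_τ_mul_le x 1

lemma norm_v_mul_le_of_left {a : A} (ha : ‖a‖ ≤ 1) (y : A) : ‖v (a * y)‖ ≤ ‖v y‖ :=
  (norm_v_mul_le a y).trans (mul_le_of_le_one_left (norm_nonneg _) ha)

lemma norm_v_mul_le_of_right {a : A} (ha : ‖a‖ ≤ 1) (y : A) : ‖v (y * a)‖ ≤ ‖v y‖ :=
  (norm_v_mul_le' y a).trans (mul_le_of_le_one_right (norm_nonneg _) ha)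

omit [Tr A] in
lemma norm_mul_le_one {a b : A} (ha : ‖a‖ ≤ 1) (hb : ‖b‖ ≤ 1) : ‖a * b‖ ≤ 1 :=
  (norm_mul_le a b).trans (mul_le_one₀ ha (norm_nonneg _) hb)

omit [Tr A] in
lemma norm_le_one_of_proj {a : A} (h : IsStarProjection (star a * a)) : ‖a‖ ≤ 1 := by
  have := h.norm_le
  rw [CStarRing.norm_star_mul_self] at this
  nlinarith [norm_nonneg a]

omit [Tr A] in
lemma norm_one_le : ‖(1 : A)‖ ≤ 1 := (IsStarProjection.one A).norm_le

/-- The trace of an element, as a real number. -/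
noncomputable def sz (p : A) : ℝ := (τ p).re

lemma sz_add (p q : A) : sz (p + q) = sz p + sz q := by simp [sz]

lemma sz_sub (p q : A) : sz (p - q) = sz p - sz q := by simp [sz]

lemma sz_one : sz (1 : A) = 1 := by simp [sz, τ_one]

lemma sz_zero : sz (0 : A) = 0 := by simp [sz]

lemma sz_comm (a b : A) : sz (a * b) = sz (b * a) := by rw [sz, sz, τ_comm]

lemma sz_sum {ι : Type*} (s : Finset ι) (f : ι → A) : sz (∑ i ∈ s, f i) = ∑ i ∈ s, sz (f i) := by
  simp [sz]

lemma norm_v_sq_sz (a : A) : ‖v a‖ ^ 2 = sz (star a * a) := norm_v_sq a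

lemma proj_sq {p : A} (hp : IsStarProjection p) : ‖v p‖ ^ 2 = sz p := by
  rw [norm_v_sq_sz, hp.isSelfAdjoint.star_eq, hp.isIdempotentElem.eq]

lemma τ_proj {p : A} (hp : IsStarProjection p) : τ p = (sz p : ℂ) := by
  rw [← proj_sq hp, ← τ_star_mul_self, hp.isSelfAdjoint.star_eq, hp.isIdempotentElem.eq]

lemma sz_nonneg {p : A} (hp : IsStarProjection p) : 0 ≤ sz p := by
  rw [← proj_sq hp]; positivity

lemma sz_le_one {p : A} (hp : IsStarProjection p) : sz p ≤ 1 := by
  have := sz_nonneg hp.one_sub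
  rw [sz_sub, sz_one] at this
  linarith

lemma eq_zero_of_norm_v {a : A} (h : ‖v a‖ = 0) : a = 0 :=
  v.map_eq_zero_iff.1 (norm_eq_zero.1 h)

lemma proj_eq_zero {p : A} (hp : IsStarProjection p) (h : sz p = 0) : p = 0 := by
  rw [← proj_sq hp] at h
  exact eq_zero_of_norm_v (pow_eq_zero_iff two_ne_zero |>.1 h)

lemma sz_pos {p : A} (hp : IsStarProjection p) (h : p ≠ 0) : 0 < sz p :=
  lt_of_le_of_ne (sz_nonneg hp) fun h' => h (proj_eq_zero hp h'.symm)

/-- Convergence in the `L²` norm. -/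
def Conv (x : ℕ → A) (y : A) : Prop := Tendsto (fun n => ‖v (x n - y)‖) atTop (𝓝 0)

lemma conv_iff {x : ℕ → A} {y : A} :
    Conv x y ↔ Tendsto (fun n => v (x n)) atTop (𝓝 (v y)) := by
  rw [tendsto_iff_norm_sub_tendsto_zero]
  simp only [Conv, map_sub]

namespace Conv

variable {x x' : ℕ → A} {y y' : A}

lemma of_le {b : ℕ → ℝ} (hb : Tendsto b atTop (𝓝 0)) (h : ∀ n, ‖v (x n - y)‖ ≤ b n) :
    Conv x y := squeeze_zero (fun _ => norm_nonneg _) h hb

lemma unique (h : Conv x y) (h' : Conv x y') : y = y' :=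
  v.injective (tendsto_nhds_unique (conv_iff.1 h) (conv_iff.1 h'))

lemma const (y : A) : Conv (fun _ => y) y := by simp [Conv]

lemma congr (h : Conv x y) (e : ∀ n, x n = x' n) : Conv x' y := by
  rwa [← funext e]

lemma shift (h : Conv x y) (k : ℕ) : Conv (fun n => x (n + k)) y :=
  (tendsto_add_atTop_iff_nat k).2 h

lemma add (h : Conv x y) (h' : Conv x' y') : Conv (fun n => x n + x' n) (y + y') := by
  rw [conv_iff] at *
  simpa only [map_add] using h.add h'

lemma sub (h : Conv x y) (h' : Conv x' y') : Conv (fun n => x n - x' n) (y - y') := by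
  rw [conv_iff] at *
  simpa only [map_sub] using h.sub h'

lemma smul (h : Conv x y) (c : ℂ) : Conv (fun n => c • x n) (c • y) := by
  rw [conv_iff] at *
  simpa only [map_smul] using h.const_smul c

lemma mul_left (h : Conv x y) (a : A) : Conv (fun n => a * x n) (a * y) :=
  of_le (b := fun n => ‖a‖ * ‖v (x n - y)‖) (by simpa using h.const_mul ‖a‖) fun n => by
    rw [← mul_sub]; exact norm_v_mul_le _ _

lemma mul_right (h : Conv x y) (a : A) : Conv (fun n => x n * a) (y * a) :=
  of_le (b := fun n => ‖v (x n - y)‖ * ‖a‖) (by simpa using h.mul_const ‖a‖) fun n => by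
    rw [← sub_mul]; exact norm_v_mul_le' _ _

lemma star (h : Conv x y) : Conv (fun n => star (x n)) (star y) :=
  of_le h fun n => by rw [← star_sub, norm_v_star]

lemma mul (h : Conv x y) (h' : Conv x' y') (hb : ∀ n, ‖x n‖ ≤ 1) :
    Conv (fun n => x n * x' n) (y * y') := by
  have h1 : Conv (fun n => x n * (x' n - y')) 0 :=
    of_le h' fun n => by rw [sub_zero]; exact norm_v_mul_le_of_left (hb n) _
  have := h1.add (h.mul_right y')
  rw [zero_add] at this
  exact this.congr fun n => by noncomm_ring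

lemma tendsto_τ (h : Conv x y) : Tendsto (fun n => τ (x n)) atTop (𝓝 (τ y)) := by
  rw [tendsto_iff_norm_sub_tendsto_zero]
  exact squeeze_zero (fun _ => norm_nonneg _) (fun n => by
    rw [← map_sub]; exact norm_τ_le _) h

lemma tendsto_sz (h : Conv x y) : Tendsto (fun n => sz (x n)) atTop (𝓝 (sz y)) :=
  (Complex.continuous_re.tendsto _).comp h.tendsto_τ

lemma of_tendsto (h : Tendsto x atTop (𝓝 y)) : Conv x y :=
  of_le (tendsto_iff_norm_sub_tendsto_zero.1 h) fun _ => norm_v_le _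

end Conv

/-- The properties of a II₁ factor that are used. -/
class Two (A : Type*) [CStarAlgebra A] [Tr A] : Prop where
  compl : ∀ x : ℕ → A, (∀ n, ‖x n‖ ≤ 1) → CauchySeq (fun n => v (x n)) →
    ∃ y, ‖y‖ ≤ 1 ∧ Conv x y
  factor : ∀ z : A, (∀ x, z * x = x * z) → ∃ c : ℂ, z = c • (1 : A)
  inf : ¬ FiniteDimensional ℂ A

end Vale.Agent.P085
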