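import Vale.Agent.P085.Basic

/-! Corner unitaries and the `L²` Dixmier averaging property. -/

open Filter Topology
open scoped InnerProductSpace ComplexOrder ComplexConjugate

namespace Vale.Agent.P085

variable {A : Type*} [CStarAlgebra A]

lemma pi_mul {a : A} (h : IsStarProjection (star a * a)) : a * (star a * a) = a := by
  have h1 := h.isIdempotentElem.eq
  have : star (a * (star a * a) - a) * (a * (star a * a) - a) = 0 := by
    have e : star (a * (star a * a) - a) * (a * (star a * a) - a) =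
        (star a * a) * (star a * a) * (star a * a) - (star a * a) * (star a * a)
          - (star a * a) * (star a * a) + star a * a := by
      rw [star_sub, star_mul, star_mul, star_star]; noncomm_ring
    rw [e, h1, h1]; abel
  exact sub_eq_zero.1 (CStarRing.star_mul_self_eq_zero_iff _ |>.1 this)

lemma proj_mul_star {a : A} (h : IsStarProjection (star a * a)) :
    IsStarProjection (a * star a) := by
  refine ⟨?_, IsSelfAdjoint.mul_star_self a⟩
  have := pi_mul h
  calc a * star a * (a * star a) = a * (star a * a) * star a := by noncomm_ring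
    _ = a * star a := by rw [this]

lemma proj_star {p : A} (hp : IsStarProjection p) : star p = p := hp.isSelfAdjoint.star_eq

lemma proj_mul {p : A} (hp : IsStarProjection p) : p * p = p := hp.isIdempotentElem.eq

lemma mul_of_star {a b c : A} (h : a * b = c) : star b * star a = star c := by
  rw [← star_mul, h]

/-- Unitaries of the corner `e A e`. -/
def CU (e u : A) : Prop := star u * u = e ∧ u * star u = e

namespace CU

variable {e u w : A}

lemma star' (h : CU e u) : CU e (star u) := ⟨by rw [star_star]; exact h.2, by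
  rw [star_star]; exact h.1⟩

lemma mul_e (he : IsStarProjection e) (h : CU e u) : u * e = u := by
  have := pi_mul (a := u) (by rw [h.1]; exact he)
  rwa [h.1] at this

lemma e_mul (he : IsStarProjection e) (h : CU e u) : e * u = u := by
  have := mul_of_star (h.star'.mul_e he)
  rwa [proj_star he, star_star] at this

lemma norm_le (he : IsStarProjection e) (h : CU e u) : ‖u‖ ≤ 1 :=
  norm_le_one_of_proj (by rw [h.1]; exact he)

lemma self (he : IsStarProjection e) : CU e e := by
  constructor <;> rw [proj_star he, proj_mul he]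

lemma mul (he : IsStarProjection e) (h : CU e u) (h' : CU e w) : CU e (u * w) := by
  constructor
  · rw [star_mul, mul_assoc, ← mul_assoc (star u), h.1, h'.e_mul he, h'.1]
  · rw [star_mul, mul_assoc, ← mul_assoc w, h'.2, h.star'.e_mul he, h.2]

end CU

/-- The real part. -/
noncomputable def rp (x : A) : A := (1 / 2 : ℂ) • (x + star x)

lemma rp_star (x : A) : star (rp x) = rp x := by
  simp [rp, add_comm]

lemma norm_rp (x : A) : ‖rp x‖ ≤ ‖x‖ := by
  rw [rp, norm_smul]
  have := norm_add_le x (star x)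
  rw [norm_star] at this
  simp only [one_div, norm_inv, Complex.norm_ofNat]
  linarith

lemma rp_decomp (x : A) : x = rp x + Complex.I • rp ((-Complex.I) • x) := by
  simp only [rp, star_smul, star_neg, Complex.star_def, Complex.conj_I, neg_neg, smul_add,
    smul_smul]
  have e1 : Complex.I * (1 / 2 * -Complex.I) = 1 / 2 := by
    linear_combination (-1 / 2 : ℂ) * Complex.I_mul_I
  have e2 : Complex.I * (1 / 2 * Complex.I) = -(1 / 2) := by
    linear_combination (1 / 2 : ℂ) * Complex.I_mul_I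
  rw [e1, e2]
  module

lemma mul_rp {e x : A} (he : star e = e) (h1 : e * x = x) (h2 : x * e = x) : e * rp x = rp x := by
  have := mul_of_star h2
  rw [he] at this
  rw [rp, mul_smul_comm, mul_add, h1, this]

lemma exists_cu {e x : A} (he : IsStarProjection e) (hx : star x = x) (hn : ‖x‖ ≤ 1)
    (hex : e * x = x) : ∃ u, CU e u ∧ x = rp u := by
  rcases subsingleton_or_nontrivial A with hA | hA
  · exact ⟨e, CU.self he, Subsingleton.elim _ _⟩
  have hsa : IsSelfAdjoint x := hx
  have hxe : x * e = x := by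
    have := mul_of_star hex
    rwa [hx, proj_star he] at this
  set k := cfc (fun t : ℝ => √(1 - t ^ 2)) x with hk
  have k1 : star k = k := (cfc_predicate (R := ℝ) _ x : IsSelfAdjoint k)
  have k2 : k * k = 1 - x * x := by
    rw [hk, ← cfc_mul .., ← sq, ← cfc_pow_id (R := ℝ) x 2, ← cfc_const_one ℝ x, ← cfc_sub ..]
    refine cfc_congr fun t ht => ?_
    have : ‖t‖ ≤ 1 := (spectrum.norm_le_norm_of_mem ht).trans hn
    exact Real.mul_self_sqrt (by rw [Real.norm_eq_abs] at this; nlinarith [abs_nonneg t, sq_abs t])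
  have k3 : k * x = x * k := (Commute.refl x).cfc_real _
  have k4 : k * e = e * k := (show Commute x e from hxe.trans hex.symm).cfc_real _
  have hI : ∀ a : A, Complex.I • Complex.I • a = -a := fun a => by
    rw [smul_smul, Complex.I_mul_I, neg_smul, one_smul]
  have s1 : star (x + Complex.I • k) = x - Complex.I • k := by
    rw [star_add, star_smul, hx, k1, Complex.star_def, Complex.conj_I, neg_smul, sub_eq_add_neg]
  have u1 : (x - Complex.I • k) * (x + Complex.I • k) = 1 := by
    simp only [sub_mul, mul_add, smul_mul_assoc, mul_smul_comm, hI, k2, k3, smul_sub]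
    abel
  have u2 : (x + Complex.I • k) * (x - Complex.I • k) = 1 := by
    simp only [add_mul, mul_sub, smul_mul_assoc, mul_smul_comm, hI, k2, k3, smul_add]
    abel
  have c1 : e * (x - Complex.I • k) = (x - Complex.I • k) * e := by
    rw [mul_sub, sub_mul, hex, hxe, mul_smul_comm, smul_mul_assoc, k4]
  refine ⟨(x + Complex.I • k) * e, ⟨?_, ?_⟩, ?_⟩
  · rw [star_mul, s1, proj_star he, mul_assoc, ← mul_assoc (x - _), u1, one_mul, proj_mul he]
  · rw [star_mul, s1, proj_star he, mul_assoc, ← mul_assoc e, proj_mul he, c1, ← mul_assoc, u2,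
      one_mul]
  · rw [rp, star_mul, s1, proj_star he, c1, ← add_mul, add_add_sub_cancel, add_mul, hxe]
    module

lemma commute_of_cu {e z : A} (he : IsStarProjection e) (h : ∀ u, CU e u → z * u = u * z)
    {x : A} (h1 : e * x = x) (h2 : x * e = x) : z * x = x * z := by
  have key : ∀ y : A, e * y = y → y * e = y → z * rp y = rp y * z := by
    intro y h1 h2
    set c : ℝ := (‖y‖ + 1)⁻¹ with hc
    have hpos : 0 < ‖y‖ + 1 := by positivity
    obtain ⟨u, hu, hu'⟩ := exists_cu (x := (c : ℂ) • rp y) he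
      (by rw [star_smul, rp_star, Complex.star_def, Complex.conj_ofReal])
      (by
        rw [norm_smul, Complex.norm_real, Real.norm_of_nonneg (by positivity), hc,
          inv_mul_le_iff₀ hpos]
        linarith [norm_rp y])
      (by rw [mul_smul_comm, mul_rp (proj_star he) h1 h2])
    have h3 : z * ((c : ℂ) • rp y) = ((c : ℂ) • rp y) * z := by
      rw [hu', rp, mul_smul_comm, smul_mul_assoc, mul_add, add_mul, h u hu, h _ hu.star']
    rw [mul_smul_comm, smul_mul_assoc] at h3
    exact smul_right_injective A (by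
      rw [Ne, Complex.ofReal_eq_zero, hc]; exact inv_ne_zero hpos.ne') h3
  rw [rp_decomp x, mul_add, add_mul, mul_smul_comm, smul_mul_assoc, key x h1 h2,
    key _ (by rw [mul_smul_comm, h1]) (by rw [smul_mul_assoc, h2])]

/-- Conjugation. -/
noncomputable def ad (u : A) : A →ₗ[ℂ] A :=
  (LinearMap.mulRight ℂ u).comp (LinearMap.mulLeft ℂ (star u))

lemma ad_apply (u x : A) : ad u x = star u * x * u := rfl

/-- Dyadic averages of conjugations by unitaries of a corner. -/
inductive Avg (e : A) : (A →ₗ[ℂ] A) → Prop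
  | ad (u : A) (hu : CU e u) : Avg e (ad u)
  | mid (Φ Ψ : A →ₗ[ℂ] A) (h1 : Avg e Φ) (h2 : Avg e Ψ) : Avg e ((1 / 2 : ℂ) • (Φ + Ψ))

namespace Avg

variable {e : A} {Φ Ψ : A →ₗ[ℂ] A}

lemma comp (he : IsStarProjection e) (h : Avg e Φ) (h' : Avg e Ψ) : Avg e (Φ.comp Ψ) := by
  induction h with
  | ad u hu =>
    induction h' with
    | ad w hw =>
      have : (P085.ad u).comp (P085.ad w) = P085.ad (w * u) := by
        ext x; simp [ad_apply, mul_assoc]
      rw [this]; exact Avg.ad _ (hw.mul he hu)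
    | mid Φ Ψ _ _ i1 i2 =>
      rw [LinearMap.comp_smul, LinearMap.comp_add]; exact Avg.mid _ _ i1 i2
  | mid Φ Ψ _ _ i1 i2 =>
    rw [LinearMap.smul_comp, LinearMap.add_comp]; exact Avg.mid _ _ i1 i2

/-- Linear relations pass from conjugations to averages. -/
lemma eq_of (h : Avg e Φ) {B : Type*} [AddCommGroup B] [Module ℂ B]
    (T : (A →ₗ[ℂ] A) →ₗ[ℂ] B) (b : B) (hT : ∀ u, CU e u → T (P085.ad u) = b) : T Φ = b := by
  induction h with
  | ad u hu => exact hT u hu
  | mid Φ Ψ _ _ i1 i2 => rw [map_smul, map_add, i1, i2]; module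

lemma norm_le_of (h : Avg e Φ) {B : Type*} [NormedAddCommGroup B] [NormedSpace ℂ B]
    (T : (A →ₗ[ℂ] A) →ₗ[ℂ] B) (b : ℝ) (hT : ∀ u, CU e u → ‖T (P085.ad u)‖ ≤ b) : ‖T Φ‖ ≤ b := by
  induction h with
  | ad u hu => exact hT u hu
  | mid Φ Ψ _ _ i1 i2 =>
    rw [map_smul, map_add, norm_smul]
    have := norm_add_le (T Φ) (T Ψ)
    simp only [one_div, norm_inv, Complex.norm_ofNat]
    linarith

lemma exists_le (h : Avg e Φ) (T : (A →ₗ[ℂ] A) →ₗ[ℂ] ℂ) :
    ∃ u, CU e u ∧ (T (P085.ad u)).re ≤ (T Φ).re := by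
  induction h with
  | ad u hu => exact ⟨u, hu, le_rfl⟩
  | mid Φ Ψ _ _ i1 i2 =>
    obtain ⟨u, hu, h1⟩ := i1
    obtain ⟨w, hw, h2⟩ := i2
    have e1 : (T ((1 / 2 : ℂ) • (Φ + Ψ))).re = ((T Φ).re + (T Ψ).re) / 2 := by
      rw [map_smul, map_add, smul_eq_mul]
      simp [Complex.mul_re]; ring
    rw [e1]
    rcases le_total (T Φ).re (T Ψ).re with h | h
    · exact ⟨u, hu, by linarith⟩
    · exact ⟨w, hw, by linarith⟩

lemma norm_le (he : IsStarProjection e) (h : Avg e Φ) (x : A) : ‖Φ x‖ ≤ ‖x‖ :=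
  h.norm_le_of (LinearMap.applyₗ x) _ fun u hu => by
    change ‖star u * x * u‖ ≤ _
    have h1 := norm_mul_le (star u * x) u
    have h2 := norm_mul_le (star u) x
    have h3 := hu.norm_le he
    have h4 := hu.star'.norm_le he
    nlinarith [norm_nonneg x, norm_nonneg (star u * x)]

lemma e_mul (he : IsStarProjection e) (h : Avg e Φ) (x : A) : e * Φ x = Φ x := by
  have := h.eq_of ((LinearMap.mulLeft ℂ (1 - e)).comp (LinearMap.applyₗ x)) 0 fun u hu => by
    change (1 - e) * (star u * x * u) = 0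
    rw [sub_mul, one_mul, ← mul_assoc, ← mul_assoc, hu.star'.e_mul he, sub_self]
  change (1 - e) * Φ x = 0 at this
  rw [sub_mul, one_mul, sub_eq_zero] at this
  exact this.symm

lemma mul_e (he : IsStarProjection e) (h : Avg e Φ) (x : A) : Φ x * e = Φ x := by
  have := h.eq_of ((LinearMap.mulRight ℂ (1 - e)).comp (LinearMap.applyₗ x)) 0 fun u hu => by
    change (star u * x * u) * (1 - e) = 0
    rw [mul_sub, mul_one, mul_assoc _ u e, hu.mul_e he, sub_self]
  change Φ x * (1 - e) = 0 at this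
  rw [mul_sub, mul_one, sub_eq_zero] at this
  exact this.symm

lemma map_e (he : IsStarProjection e) (h : Avg e Φ) : Φ e = e :=
  h.eq_of (LinearMap.applyₗ e) e fun u hu => by
    change star u * e * u = e
    rw [hu.star'.mul_e he, hu.1]

variable [Tr A]

lemma norm_v_le (he : IsStarProjection e) (h : Avg e Φ) (x : A) : ‖v (Φ x)‖ ≤ ‖v x‖ :=
  h.norm_le_of (v.toLinearMap.comp (LinearMap.applyₗ x)) _ fun u hu => by
    change ‖v (star u * x * u)‖ ≤ _
    exact (norm_v_mul_le_of_right (hu.norm_le he) _).trans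
      (norm_v_mul_le_of_left (hu.star'.norm_le he) _)

lemma τ_map (h : Avg e Φ) (x : A) : τ (Φ x) = τ (x * e) :=
  h.eq_of (τ.comp (LinearMap.applyₗ x)) _ fun u hu => by
    change τ (star u * x * u) = _
    rw [mul_assoc, τ_comm, mul_assoc, hu.2]

end Avg

variable [Tr A] [Two A]

lemma compl' {x : ℕ → A} {R : ℝ} (hb : ∀ n, ‖x n‖ ≤ R) (hc : CauchySeq fun n => v (x n)) :
    ∃ y, Conv x y := by
  have hR : 0 < R + 1 := by linarith [hb 0, norm_nonneg (x 0)]
  obtain ⟨y, -, hy⟩ := Two.compl (fun n => (((R + 1)⁻¹ : ℝ) : ℂ) • x n) (fun n => by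
    rw [norm_smul, Complex.norm_real, Real.norm_of_nonneg (by positivity), inv_mul_le_iff₀ hR]
    linarith [hb n]) (by
      simp only [map_smul]
      exact (uniformContinuous_const_smul _).comp_cauchySeq hc)
  refine ⟨_, (hy.smul ((R + 1 : ℝ) : ℂ)).congr fun n => ?_⟩
  rw [smul_smul, ← Complex.ofReal_mul, mul_inv_cancel₀ hR.ne', Complex.ofReal_one, one_smul]

lemma dix_one {e : A} (he : IsStarProjection e)
    (hfac : ∀ z, e * z = z → z * e = z → (∀ u, CU e u → z * u = u * z) → ∃ c : ℂ, z = c • e)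
    {x : A} (hx : τ (x * e) = 0) {ε : ℝ} (hε : 0 < ε) : ∃ Φ, Avg e Φ ∧ ‖v (Φ x)‖ ≤ ε := by
  set S : Set ℝ := {r | ∃ Φ, Avg e Φ ∧ r = ‖v (Φ x)‖ ^ 2} with hS
  have hne : S.Nonempty := ⟨_, _, Avg.ad e (CU.self he), rfl⟩
  have hbd : BddBelow S := ⟨0, by rintro _ ⟨Φ, -, rfl⟩; positivity⟩
  have hch : ∀ n : ℕ, ∃ Φ, Avg e Φ ∧ ‖v (Φ x)‖ ^ 2 ≤ sInf S + 1 / (n + 1 : ℝ) := by
    intro n
    obtain ⟨_, ⟨Φ, h1, rfl⟩, h2⟩ := Real.lt_sInf_add_pos hne
      (show 0 < 1 / (n + 1 : ℝ) by positivity)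
    exact ⟨Φ, h1, h2.le⟩
  choose Φ hΦ hΦ' using hch
  have par : ∀ Φ Ψ, Avg e Φ → Avg e Ψ → ‖v (Φ x) - v (Ψ x)‖ ^ 2 ≤
      2 * ‖v (Φ x)‖ ^ 2 + 2 * ‖v (Ψ x)‖ ^ 2 - 4 * sInf S := by
    intro Φ Ψ h1 h2
    have h3 := csInf_le hbd ⟨_, Avg.mid _ _ h1 h2, rfl⟩
    have h4 := parallelogram_law_with_norm ℂ (v (Φ x)) (v (Ψ x))
    simp only [LinearMap.smul_apply, LinearMap.add_apply, map_smul, map_add, norm_smul, one_div,
      norm_inv, Complex.norm_ofNat] at h3
    nlinarith
  have hlim : Tendsto (fun n : ℕ => √(4 * (1 / (n + 1 : ℝ)))) atTop (𝓝 0) := by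
    have := (tendsto_one_div_add_atTop_nhds_zero_nat (𝕜 := ℝ)).const_mul 4
    simpa using this.sqrt
  have hc : CauchySeq fun n => v (Φ n x) := by
    refine cauchySeq_of_le_tendsto_0 _ (fun n m N hn hm => ?_) hlim
    rw [dist_eq_norm]
    refine Real.le_sqrt_of_sq_le ((par _ _ (hΦ n) (hΦ m)).trans ?_)
    have a1 : 1 / (n + 1 : ℝ) ≤ 1 / (N + 1 : ℝ) := Nat.one_div_le_one_div hn
    have a2 : 1 / (m + 1 : ℝ) ≤ 1 / (N + 1 : ℝ) := Nat.one_div_le_one_div hm
    linarith [hΦ' n, hΦ' m]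
  obtain ⟨y, hy⟩ := compl' (fun n => (hΦ n).norm_le he x) hc
  have y1 : e * y = y := (hy.mul_left e).unique (hy.congr fun n => ((hΦ n).e_mul he x).symm)
  have y2 : y * e = y := (hy.mul_right e).unique (hy.congr fun n => ((hΦ n).mul_e he x).symm)
  have y3 : ∀ u, CU e u → y * u = u * y := by
    intro u hu
    have h1 : Conv (fun n => Φ n x - star u * Φ n x * u) 0 := by
      refine Conv.of_le hlim fun n => ?_
      rw [sub_zero, map_sub]
      have h2 := par _ _ (hΦ n) ((Avg.ad u hu).comp he (hΦ n))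
      have h3 : ‖v (ad u (Φ n x))‖ ≤ ‖v (Φ n x)‖ := (Avg.ad u hu).norm_v_le he _
      have h4 := pow_le_pow_left₀ (norm_nonneg _) h3 2
      refine Real.le_sqrt_of_sq_le (le_trans h2 ?_)
      change 2 * _ + 2 * ‖v (ad u (Φ n x))‖ ^ 2 - _ ≤ _
      linarith [hΦ' n]
    have h5 := sub_eq_zero.1 ((hy.sub ((hy.mul_left (star u)).mul_right u)).unique h1)
    calc y * u = u * star u * y * u := by rw [hu.2, y1]
      _ = u * (star u * y * u) := by simp only [mul_assoc]
      _ = u * y := by rw [← h5]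
  obtain ⟨c, hc⟩ := hfac y y1 y2 y3
  have y4 : τ y = 0 := by
    have := hy.tendsto_τ
    simp only [fun n => (hΦ n).τ_map x, hx] at this
    exact (tendsto_nhds_unique tendsto_const_nhds this).symm
  have y5 : y = 0 := by
    apply Tr.faith
    have : star y * y = star c • y := by
      conv_lhs => rw [hc, star_smul, proj_star he, smul_mul_assoc, ← hc, y1]
    rw [this, map_smul, y4, smul_zero]
  rw [y5] at hy
  obtain ⟨n, hn⟩ := (hy.eventually (gt_mem_nhds hε)).exists
  exact ⟨Φ n, hΦ n, by simpa using hn.le⟩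

lemma dix_fam' {e : A} (he : IsStarProjection e)
    (hfac : ∀ z, e * z = z → z * e = z → (∀ u, CU e u → z * u = u * z) → ∃ c : ℂ, z = c • e)
    {J : Type*} (s : Finset J) {x : J → A} (hx : ∀ j, τ (x j * e) = 0) {ε : ℝ} (hε : 0 < ε) :
    ∃ Φ, Avg e Φ ∧ ∀ j ∈ s, ‖v (Φ (x j))‖ ≤ ε := by
  classical
  induction s using Finset.induction_on with
  | empty => exact ⟨_, Avg.ad e (CU.self he), by simp⟩
  | insert j s _ ih =>
    obtain ⟨Φ, h1, h2⟩ := ih
    obtain ⟨Ψ, h3, h4⟩ := dix_one he hfac (x := Φ (x j))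
      (by rw [h1.mul_e he, h1.τ_map, hx]) hε
    refine ⟨_, h3.comp he h1, fun i hi => ?_⟩
    rcases Finset.mem_insert.1 hi with rfl | hi
    · exact h4
    · exact (h3.norm_v_le he _).trans (h2 i hi)

lemma dix_top (a b : A) {ε : ℝ} (hε : 0 < ε) : ∃ Φ, Avg 1 Φ ∧
    ‖v (Φ a - τ a • 1)‖ ≤ ε ∧ ‖v (Φ b - τ b • 1)‖ ≤ ε := by
  have he := IsStarProjection.one A
  obtain ⟨Φ, h1, h2⟩ := dix_fam' he (fun z _ _ h => Two.factor z fun x =>
    commute_of_cu he h (one_mul x) (mul_one x)) Finset.univ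
    (x := fun j : Bool => if j then a - τ a • 1 else b - τ b • 1)
    (fun j => by cases j <;> simp [τ_one]) hε
  refine ⟨Φ, h1, ?_, ?_⟩
  · simpa [h1.map_e he] using h2 true (Finset.mem_univ _)
  · simpa [h1.map_e he] using h2 false (Finset.mem_univ _)

lemma scalar_rel {a b c d : A} (h : ∀ u, CU 1 u → a * (star u * b * u) = c * (star u * d * u)) :
    τ b • a = τ d • c := by
  rw [← sub_eq_zero]
  apply eq_zero_of_norm_v
  refine le_antisymm (le_of_forall_pos_le_add fun ε hε => ?_) (norm_nonneg _)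
  have hK : 0 < ‖a‖ + ‖c‖ + 1 := by positivity
  obtain ⟨Φ, h1, h2, h3⟩ := dix_top b d (div_pos hε hK)
  have h4 := h1.eq_of ((LinearMap.mulLeft ℂ a).comp (LinearMap.applyₗ b) -
    (LinearMap.mulLeft ℂ c).comp (LinearMap.applyₗ d)) 0 fun u hu => sub_eq_zero.2 (h u hu)
  change a * Φ b - c * Φ d = 0 at h4
  have e1 : τ b • a - τ d • c = c * (Φ d - τ d • 1) - a * (Φ b - τ b • 1) := by
    rw [mul_sub, mul_sub, ← sub_eq_zero.1 h4, mul_smul_comm, mul_smul_comm, mul_one, mul_one]
    abel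
  rw [e1, map_sub]
  have h5 := norm_sub_le (v (c * (Φ d - τ d • 1))) (v (a * (Φ b - τ b • 1)))
  have h6 := (norm_v_mul_le c _).trans (mul_le_mul_of_nonneg_left h3 (norm_nonneg _))
  have h7 := (norm_v_mul_le a _).trans (mul_le_mul_of_nonneg_left h2 (norm_nonneg _))
  have h8 : (‖a‖ + ‖c‖ + 1) * (ε / (‖a‖ + ‖c‖ + 1)) = ε := mul_div_cancel₀ _ hK.ne'
  have h9 : 0 < ε / (‖a‖ + ‖c‖ + 1) := div_pos hε hK
  nlinarith

lemma prime {a b : A} (ha : a ≠ 0) (hb : b ≠ 0) : ∃ y, a * y * b ≠ 0 := by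
  by_contra hcon
  push Not at hcon
  have := scalar_rel (a := a) (b := b * star b) (c := 0) (d := 0) fun u _ => by
    calc a * (star u * (b * star b) * u) = a * star u * b * (star b * u) := by
          simp only [mul_assoc]
      _ = _ := by rw [hcon, zero_mul, zero_mul]
  rw [smul_zero, smul_eq_zero] at this
  rcases this with h | h
  · rw [τ_comm] at h
    exact hb (Tr.faith _ h)
  · exact ha h

lemma corner_factor {e : A} (he : IsStarProjection e) (z : A) (h1 : e * z = z) (h2 : z * e = z)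
    (h : ∀ u, CU e u → z * u = u * z) : ∃ c : ℂ, z = c • e := by
  by_cases he0 : e = 0
  · exact ⟨0, by rw [← h1, he0, zero_mul, zero_smul]⟩
  have key := scalar_rel (a := z) (b := e) (c := e) (d := z) fun u _ => by
    have := commute_of_cu he h (x := e * star u * e)
      (by rw [← mul_assoc, ← mul_assoc, proj_mul he]) (by rw [mul_assoc, proj_mul he])
    calc z * (star u * e * u) = z * e * star u * e * u := by rw [h2]; simp only [mul_assoc]
      _ = z * (e * star u * e) * u := by simp only [mul_assoc]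
      _ = e * star u * (e * z) * u := by rw [this]; simp only [mul_assoc]
      _ = _ := by rw [h1]; simp only [mul_assoc]
  have hτ : τ e ≠ 0 := by
    rw [τ_proj he, Complex.ofReal_ne_zero]
    exact (sz_pos he he0).ne'
  refine ⟨(τ e)⁻¹ * τ z, ?_⟩
  rw [mul_smul, ← key, smul_smul, inv_mul_cancel₀ hτ, one_smul]

/-- Weak form of the averaging property in a corner. -/
lemma exists_cu_small {e : A} (he : IsStarProjection e) {J : Type*} [Fintype J] (b x : J → A)
    (hx : ∀ j, τ (x j * e) = 0) {κ : ℝ} (hκ : 0 < κ) :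
    ∃ u, CU e u ∧ ∑ j, (⟪v (b j), v (star u * x j * u)⟫_ℂ).re ≤ κ := by
  have hK : 0 < ∑ j, ‖v (b j)‖ + 1 := by positivity
  obtain ⟨Φ, h1, h2⟩ := dix_fam' he (corner_factor he) Finset.univ hx (div_pos hκ hK)
  obtain ⟨u, hu, h3⟩ := h1.exists_le (∑ j, (innerₛₗ ℂ (v (b j))).comp
    (v.toLinearMap.comp (LinearMap.applyₗ (x j))))
  refine ⟨u, hu, ?_⟩
  simp only [LinearMap.coe_sum, Finset.sum_apply, Complex.re_sum, LinearMap.comp_apply,
    innerₛₗ_apply_apply, LinearMap.applyₗ_apply_apply, LinearEquiv.coe_coe] at h3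
  refine h3.trans ?_
  have h4 : ∀ j ∈ Finset.univ, (⟪v (b j), v (Φ (x j))⟫_ℂ).re ≤
      ‖v (b j)‖ * (κ / (∑ j, ‖v (b j)‖ + 1)) := fun j hj =>
    (Complex.re_le_norm _).trans ((norm_inner_le_norm _ _).trans
      (mul_le_mul_of_nonneg_left (h2 j hj) (norm_nonneg _)))
  refine (Finset.sum_le_sum h4).trans ?_
  rw [← Finset.sum_mul, ← mul_div_assoc, div_le_iff₀ hK]
  nlinarith

end Vale.Agent.P085
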